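import Vale.Agent.P011I.IF
import Vale.Agent.P011IT.Grp

/-!
Conjugation on the block diagonal matrices.
-/

set_option autoImplicit false
set_option linter.all false

namespace Vale.Agent.P011IC

open Matrix Finset Vale.Agent.P183CH Vale.Agent.P183CH.Chev Vale.Agent.P011U Vale.Agent.P011UH
  Vale.Agent.P011I

variable {D : Chev} {K A : Type} [Field K] [CommRing A] {M N : D.Mat A}

/-- block diagonal matrices -/
def Bk (M : D.Mat A) : Prop := ∀ a b, lb D a ≠ lb D b → M a b = 0

theorem Bk.mul (h : Bk M) (h' : Bk N) : Bk (M * N) := fun a b e => by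
  rw [mul_apply]
  refine sum_eq_zero fun c _ => ?_
  by_cases o : lb D a = lb D c
  · rw [h' c b (o ▸ e), mul_zero]
  · rw [h a c o, zero_mul]

theorem bk_x {γ : D.R.Q} (h : γ ∈ D.R.Φ) (t : K) : Bk ((GG D K).x γ t).1.1 := fun a b e =>
  by_contra fun c => e (by
    rw [show ((GG D K).x γ t).1.1 = _ from GG_mat.x_eq γ h t] at c
    by_cases o : a = b
    · rw [o]
    obtain ⟨m, -, hm⟩ := (rf D).supp h t a b (by rwa [Matrix.sub_apply, one_apply_ne o, sub_zero])
    exact lb_eq.2 ⟨m • γ, hm.trans (congrArg _ (RS.pr_nsmul m γ).symm)⟩)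

theorem bk_grp (g : D.grp K) : Bk g.1.1 := by
  have hR := R_ok D
  have hg := (GG_ok (D := D) (k := K)).gen ▸ Subgroup.mem_top g
  induction hg using Subgroup.closure_induction'' with
  | one => exact fun a b e => one_apply_ne fun c => e (c ▸ rfl)
  | mem x hx =>
    obtain ⟨i, c, rfl | rfl⟩ := hx
    exacts [bk_x (hR.simple i) c, bk_x (hR.neg_mem (hR.simple i)) c]
  | inv_mem x hx =>
    obtain ⟨i, c, rfl | rfl⟩ := hx
    · exact GG_ok.x_neg (hR.simple i) c ▸ bk_x (hR.simple i) _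
    · exact GG_ok.x_neg (hR.neg_mem (hR.simple i)) c ▸ bk_x (hR.neg_mem (hR.simple i)) _
  | mul x y _ _ a b => exact a.mul b

theorem sum_JJ (f : Fin D.n → Fin D.n → A) (h : ∀ a b, lb D a ≠ lb D b → f a b = 0) :
    ∑ q : JJ D, f q.1.1 q.1.2 = ∑ a, ∑ b, f a b := by
  rw [← sum_subtype (univ.filter fun p : Fin D.n × Fin D.n => lb D p.1 = lb D p.2) (by simp)
    fun p => f p.1 p.2, sum_filter_of_ne fun p _ e => by_contra fun c => e (h _ _ c),
    Fintype.sum_prod_type]

theorem adm_one : Adm D (1 : D.Mat A) = 1 := by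
  ext ⟨⟨a, b⟩, _⟩ ⟨⟨c, d⟩, _⟩
  simp only [Adm, adjugate_one, of_apply, one_apply, Subtype.mk.injEq, Prod.mk.injEq, eq_comm (a := d)]
  split_ifs <;> simp_all

theorem adm_mul (h : Bk M) (h' : Bk M.adjugate) : Adm D (M * N) = Adm D M * Adm D N := by
  ext p r
  simp only [Adm, of_apply, adjugate_mul_distrib, mul_apply, sum_mul_sum]
  rw [sum_JJ (fun a b => M p.1.1 a * M.adjugate b p.1.2 * (N a r.1.1 * N.adjugate r.1.2 b))
    fun a b e => ?_]
  · exact sum_congr rfl fun _ _ => sum_congr rfl fun _ _ => by ring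
  by_cases o : lb D p.1.1 = lb D a
  · rw [h' b _ fun c => e (by rw [c, ← o, p.2]), mul_zero, zero_mul]
  · rw [h _ a o, zero_mul, zero_mul]

theorem comm_of (h : Bk M) (h' : Bk M.adjugate) (hN : Bk N) (d : M.det = 1) (e : Adm D M = 1) :
    M * N = N * M := by
  have : M * N * M.adjugate = N := Matrix.ext fun a b => by
    by_cases o : lb D a = lb D b
    · have := congrFun (congrArg (· *ᵥ fun q : JJ D => N q.1.1 q.1.2) e) ⟨(a, b), o⟩
      simp only [one_mulVec] at this
      rw [← this, mulVec, dotProduct]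
      simp only [Adm, of_apply, mul_apply, sum_mul]
      rw [sum_JJ (fun c d => M a c * M.adjugate d b * N c d) fun c d e => by rw [hN c d e, mul_zero],
        sum_comm]
      exact sum_congr rfl fun _ _ => sum_congr rfl fun _ _ => by ring
    · rw [(h.mul hN).mul h' a b o, hN a b o]
  conv_rhs => rw [← this, mul_assoc, adjugate_mul, d, one_smul, mul_one]

variable [Algebra K A]

theorem zc_bk (h : Zc K M) : Bk M := fun a b e => (MvPolynomial.aeval_X _ (a, b)).symm.trans
  (h _ fun g => (MvPolynomial.aeval_X _ _).trans (bk_grp g a b e))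

theorem zc_pt {g : GL (Fin D.n) A} (h : Pt (D.grp K) g) : Zc K g.1 := fun p hp =>
  h p (by
    rintro _ ⟨x, hx, e⟩
    exact (congrArg (MvPolynomial.aeval · p) (funext fun i => e i.1 i.2)).trans (hp ⟨x, hx⟩))

theorem adm : ADM := fun D F _ _ => by
  have z : ∀ g : D.grp F, Zc F g.1.1 := fun g p hp => hp g
  have c : ∀ g : D.grp F, Adm D g.1.1 = 1 → g ∈ Subgroup.center _ := fun g e =>
    Subgroup.mem_center_iff.2 fun h => Subtype.ext (Units.ext
      (comm_of (bk_grp g) (zc_bk (z g).adj) (bk_grp h) (det_grp g) e).symm)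
  exact ⟨fun g h => adm_mul (bk_grp g) (zc_bk (z g).adj), adm_one,
    ⟨_, fun e => P011IT.x_ncen GG_ok (R_ok D) ⟨0, (R_ok D).pos⟩ (c _ e)⟩, P011IT.cen_grp.subset c,
    fun A _ _ g h a b e => Units.ext (comm_of (zc_bk (zc_pt a)) (zc_bk (zc_pt a).adj)
      (zc_bk (zc_pt b)) (zc_pt a).det e)⟩

end Vale.Agent.P011IC
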