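import Vale.Agent.P011UH.Cl
import Mathlib.LinearAlgebra.Eigenspace.Pi

/-!
Weights of the torus on the matrices of a representation.
-/

set_option autoImplicit false
set_option linter.all false

namespace Vale.Agent.P011IC

open Matrix Finset Polynomial Vale.Agent.P183CH

variable {R : RS} {K G J : Type} [Field K] [Group G] [Fintype J] [DecidableEq J] {Γ : RG R K G}
  (hΓ : Γ.Ok) (ρ : G →* Matrix J J K)

theorem chi_add (μ ν : R.Q) (s : Fin R.r → Kˣ) :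
    RG.chi0 R K (μ + ν) s = RG.chi0 R K μ s * RG.chi0 R K ν s := by
  simp only [RG.chi0_apply, RS.pr_add, zpow_add, prod_mul_distrib]

theorem chi_nsmul (m : ℕ) (μ : R.Q) (s : Fin R.r → Kˣ) :
    RG.chi0 R K (m • μ) s = RG.chi0 R K μ s ^ m := by
  rw [RG.chi0_apply, RG.chi0_apply, RS.pr_nsmul, ← prod_pow]
  exact prod_congr rfl fun i _ => by
    rw [Pi.smul_apply, nsmul_eq_mul, mul_comm, _root_.zpow_mul, zpow_natCast]

/-- the weight spaces -/
def Wt (μ : R.Q) : Submodule K (Matrix J J K) where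
  carrier := {X | ∀ s, ρ (hΓ.hT s) * X = (RG.chi0 R K μ s : K) • (X * ρ (hΓ.hT s))}
  add_mem' a b s := by rw [mul_add, add_mul, smul_add, a, b]
  zero_mem' s := by simp
  smul_mem' c X a s := by rw [mul_smul_comm, a, smul_mul_assoc, smul_comm]

/-- sums of weight spaces -/
def FS (S : Set R.Q) : Submodule K (Matrix J J K) := Submodule.span K {X | ∃ μ ∈ S, X ∈ Wt hΓ ρ μ}

variable {hΓ ρ} {S S' S'' T : Set R.Q} {X Y : Matrix J J K} {γ μ : R.Q} {g : G}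

theorem fs_of (h : μ ∈ S) (a : X ∈ Wt hΓ ρ μ) : X ∈ FS hΓ ρ S := Submodule.subset_span ⟨μ, h, a⟩

theorem fs_mono (h : S ⊆ S') (a : X ∈ FS hΓ ρ S) : X ∈ FS hΓ ρ S' :=
  Submodule.span_mono (by exact fun _ b => b.imp fun _ c => ⟨h c.1, c.2⟩) a

theorem fs_mul (h : ∀ μ ∈ S, ∀ ν ∈ S', μ + ν ∈ S'') (a : X ∈ FS hΓ ρ S) (b : Y ∈ FS hΓ ρ S') :
    X * Y ∈ FS hΓ ρ S'' := by
  refine Submodule.span_induction₂ (p := fun X Y _ _ => X * Y ∈ FS hΓ ρ S'') ?_ (by simp) (by simp)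
    (fun _ _ _ _ _ _ p q => by rw [add_mul]; exact add_mem p q)
    (fun _ _ _ _ _ _ p q => by rw [mul_add]; exact add_mem p q)
    (fun c _ _ _ _ p => by rw [smul_mul_assoc]; exact Submodule.smul_mem _ c p)
    (fun c _ _ _ _ p => by rw [mul_smul_comm]; exact Submodule.smul_mem _ c p) a b
  rintro X Y ⟨μ, a, p⟩ ⟨ν, b, q⟩
  refine fs_of (h μ a ν b) fun s => ?_
  rw [← mul_assoc, p, smul_mul_assoc, mul_assoc, q, chi_add, Units.val_mul, mul_smul, mul_smul_comm,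
    mul_assoc]

theorem wt_T (h : g ∈ Γ.T) : ρ g ∈ Wt hΓ ρ 0 := fun s => by
  rw [← map_mul, ← map_mul, hΓ.T_comm h (hΓ.hT_mem s), ← zero_smul ℕ (0 : R.Q), chi_nsmul]
  simp

variable (hR : R.Ok) [Infinite K]
include hR

theorem fs_disj (h : Disjoint S S') : Disjoint (FS hΓ ρ S) (FS hΓ ρ S') := by
  let f (s : Fin R.r → Kˣ) : Module.End K (Matrix J J K) :=
    LinearMap.mulLeftRight K (ρ (hΓ.hT s), ρ (hΓ.hT s⁻¹))
  have a := (Module.End.independent_iInf_maxGenEigenspace_of_forall_mapsTo f fun s t φ =>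
    Module.End.mapsTo_maxGenEigenspace_of_comm (LinearMap.ext fun X => by
      simp only [f, Module.End.mul_apply, LinearMap.mulLeftRight_apply, ← mul_assoc, ← map_mul]
      simp only [mul_assoc, ← map_mul, mul_comm s, mul_comm s⁻¹]) φ).comp
    (f := fun (μ : R.Q) s => (RG.chi0 R K μ s : K)) fun μ ν e => hR.pr_inj (funext fun i =>
      sub_eq_zero.1 (P011LT.zpow_eq_one (k := K) fun t => by
        have := Units.ext (congrFun e (Pi.mulSingle i t))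
        rw [RG.chi0_single, RG.chi0_single] at this
        rw [zpow_sub, this, mul_inv_cancel]))
  have b : ∀ S, FS hΓ ρ S ≤ ⨆ μ ∈ S, ⨅ s, (f s).maxGenEigenspace (RG.chi0 R K μ s) := fun S => by
    refine Submodule.span_le.2 ?_
    rintro X ⟨μ, p, q⟩
    refine le_biSup (f := fun μ => ⨅ s, (f s).maxGenEigenspace (RG.chi0 R K μ s : K)) p
      ((Submodule.mem_iInf _).2 fun s => Module.End.eigenspace_le_maxGenEigenspace
        (Module.End.mem_eigenspace_iff.2 ?_))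
    simp only [f, LinearMap.mulLeftRight_apply]
    rw [q, smul_mul_assoc, mul_assoc, ← map_mul, ← map_mul, mul_inv_cancel, map_one, map_one, mul_one]
  exact (a.disjoint_biSup_biSup h).mono (b S) (b S')

theorem ex_pr (h : Disjoint S S') : ∃ p : Matrix J J K →ₗ[K] Matrix J J K,
    (∀ X ∈ FS hΓ ρ S, p X = 0) ∧ ∀ X ∈ FS hΓ ρ S', p X = X := by
  obtain ⟨W, a, b⟩ := (fs_disj (hΓ := hΓ) (ρ := ρ) hR h).exists_isCompl
  exact ⟨Submodule.projection _ _ b.symm, fun X c => by simpa using a c, fun X c => by simpa using c⟩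

omit [Infinite K] hR

variable (Γ ρ) in
/-- the root subgroup is a polynomial curve with a nonzero tangent vector -/
def Dr (γ : R.Q) : Prop :=
  ∃ Q : Matrix J J K[X], (∀ t, ρ (Γ.x γ t) = Q.map (eval t)) ∧ Q.map (coeff · 1) ≠ 0

theorem cj_ev (A B : Matrix J J K) (Q : Matrix J J K[X]) (t : K) :
    (A.map C * Q * B.map C).map (eval t) = A * Q.map (eval t) * B := by
  ext a b
  simp [mul_apply, eval_finsetSum]

theorem cj_co (A B : Matrix J J K) (Q : Matrix J J K[X]) (m : ℕ) :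
    (A.map C * Q * B.map C).map (coeff · m) = A * Q.map (coeff · m) * B := by
  ext a b
  simp [mul_apply, finsetSum_coeff]

theorem sc_ev (c : K) (Q : Matrix J J K[X]) (t : K) :
    (Q.map (comp · (C c * Polynomial.X))).map (eval t) = Q.map (eval (c * t)) := by
  ext a b
  simp [eval_comp]

theorem sc_co (c : K) (Q : Matrix J J K[X]) (m : ℕ) :
    (Q.map (comp · (C c * Polynomial.X))).map (coeff · m) = c ^ m • Q.map (coeff · m) := by
  ext a b
  exact comp_C_mul_X_coeff.trans (mul_comm _ _)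

include hR hΓ

theorem dr_all (h : ∀ i, Dr Γ ρ (R.α i)) (hγ : γ ∈ R.Φ) : Dr Γ ρ γ := by
  obtain ⟨w, hw, i, rfl⟩ := hR.exists_conj hγ
  obtain ⟨n, -, hn⟩ := RG.exists_rep' (Γ := Γ) hw
  obtain ⟨c, hc⟩ := hΓ.rep_conj hR hn (hR.simple i)
  obtain ⟨Q, a, b⟩ := h i
  refine ⟨(ρ n).map C * Q.map (comp · (C c⁻¹.1 * Polynomial.X)) * (ρ n⁻¹).map C, fun t => ?_,
    fun e => b ?_⟩
  · rw [cj_ev, sc_ev, ← a, ← map_mul, ← map_mul, (hc _).1, Units.mul_inv_cancel_left]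
  · rw [cj_co, sc_co, pow_one] at e
    have := congrArg (fun X => c.1 • (ρ n⁻¹ * X * ρ n)) e
    simpa [mul_assoc, ← map_mul, smul_smul, ← mul_assoc (ρ n⁻¹)] using this

variable [Infinite K]

theorem Dr.ex (h : Dr Γ ρ γ) (hγ : γ ∈ R.Φ) : ∃ E, E ≠ 0 ∧ E ∈ Wt hΓ ρ γ ∧ ∀ t,
    ρ (Γ.x γ t) - 1 - t • E ∈ FS hΓ ρ {μ | ∃ m : ℕ, μ = (m + 2) • γ} := by
  obtain ⟨Q, a, b⟩ := h
  have c : ∀ m, Q.map (coeff · m) ∈ Wt hΓ ρ (m • γ) := fun m s => by
    have : (ρ (hΓ.hT s)).map C * Q * (ρ (hΓ.hT s)⁻¹).map C =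
        Q.map (comp · (C (RG.chi0 R K γ s : K) * Polynomial.X)) :=
      Matrix.ext fun i j => Polynomial.funext fun t => congrFun₂ (show Matrix.map _ (eval t) =
        Matrix.map _ (eval t) by rw [cj_ev, sc_ev, ← a, ← a, ← map_mul, ← map_mul, hΓ.hT_x s hγ]) i j
    have e := congrArg (·.map (coeff · m) * ρ (hΓ.hT s)) this
    simp only [cj_co, sc_co] at e
    rw [chi_nsmul, Units.val_pow_eq_pow_val, ← smul_mul_assoc, ← e, mul_assoc, ← map_mul,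
      inv_mul_cancel, map_one, mul_one]
  refine ⟨_, b, one_smul ℕ γ ▸ c 1, fun t => ?_⟩
  let N := univ.sup fun e : J × J => (Q e.1 e.2).natDegree
  have e : ∀ t, Q.map (eval t) = ∑ m ∈ range (N + 2), t ^ m • Q.map (coeff · m) := fun t => by
    ext i j
    have : (Q i j).natDegree ≤ N := le_sup (f := fun e : J × J => (Q e.1 e.2).natDegree)
      (mem_univ (i, j))
    simp only [map_apply, Matrix.sum_apply, Matrix.smul_apply, smul_eq_mul, mul_comm (t ^ _)]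
    exact eval_eq_sum_range' (by omega) t
  have z := (a 0).trans (e 0)
  rw [hΓ.x_zero hγ, map_one, sum_range_succ'] at z
  simp only [pow_succ, mul_zero, zero_smul, sum_const_zero, pow_zero, one_smul, zero_add] at z
  rw [a, e, sum_range_succ', sum_range_succ', pow_zero, one_smul, ← z, add_sub_cancel_right,
    zero_add, pow_one, add_sub_cancel_right]
  exact sum_mem fun m _ => Submodule.smul_mem _ _ (fs_of ⟨m, rfl⟩ (c _))

variable (h : ∀ i, Dr Γ ρ (R.α i))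
include h

theorem fx (hS : ∀ μ ∈ S, ∀ ν ∈ S, μ + ν ∈ S) (hT : ∀ γ ∈ T, γ ∈ R.Φ → γ ∈ S) (hg : g ∈ Γ.X T) :
    ρ g - 1 ∈ FS hΓ ρ S := by
  refine hΓ.X_ind (P := fun g => ρ g - 1 ∈ FS hΓ ρ S) (by simp) (fun γ a b t => ?_)
    (fun x _ y _ p q => ?_) hg
  · obtain ⟨E, -, p, q⟩ := (dr_all (hΓ := hΓ) hR h b).ex (hΓ := hΓ) hR b
    have c : ∀ m : ℕ, (m + 1) • γ ∈ S := fun m => by
      induction m with
      | zero => simpa using hT γ a b
      | succ m ih => exact succ_nsmul γ _ ▸ hS _ ih _ (hT γ a b)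
    exact sub_add_cancel (ρ (Γ.x γ t) - 1) (t • E) ▸ add_mem
      (fs_mono (by rintro _ ⟨m, rfl⟩; exact c _) (q t))
      (Submodule.smul_mem _ _ (fs_of (hT γ a b) p))
  · rw [map_mul, show ρ x * ρ y - 1 = (ρ x - 1) * (ρ y - 1) + (ρ x - 1) + (ρ y - 1) by noncomm_ring]
    exact add_mem (add_mem (fs_mul hS p q) p) q

theorem fU (hg : g ∈ Γ.U) : ρ g - 1 ∈ FS hΓ ρ {μ | 0 < R.ht μ} :=
  fx hR h (fun μ a ν b => (add_pos a b).trans_eq (RS.ht_add μ ν).symm)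
    (fun _ a b => hR.ht_pos ⟨b, a⟩) hg

theorem fV (hg : g ∈ Γ.V) : ρ g - 1 ∈ FS hΓ ρ {μ | R.ht μ < 0} :=
  fx hR h (fun μ a ν b => (RS.ht_add μ ν).trans_lt (add_neg a b)) (fun γ a b => by
    have := hR.ht_pos ⟨hR.neg_mem b, neg_nonneg.2 a⟩
    rw [← neg_one_smul ℤ, RS.ht_smul] at this
    show R.ht γ < 0
    omega) hg

theorem ex_l (hγ : γ ∈ R.Pos) : ∃ l : Matrix J J K →ₗ[K] K, l 1 = 0 ∧
    ∀ t, ∀ g ∈ Γ.X {δ | R.ht γ ≤ R.ht δ ∧ δ ≠ γ}, l (ρ (Γ.x γ t * g)) = t := by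
  obtain ⟨E, o, p, q⟩ := (dr_all (hΓ := hΓ) hR h hγ.1).ex (hΓ := hΓ) hR hγ.1
  have z := hR.ht_pos hγ
  obtain ⟨l, a, b⟩ := Submodule.exists_le_ker_of_notMem (p := FS hΓ ρ {γ}ᶜ) (v := E) fun e =>
    o ((Submodule.disjoint_def.1 (fs_disj hR (S := {γ}) disjoint_compl_right)) E (fs_of rfl p) e)
  have n : ∀ {μ}, R.ht μ ≠ R.ht γ → μ ∈ ({γ}ᶜ : Set R.Q) := fun e f => e (congrArg R.ht f)
  have c : l 1 = 0 := b (fs_of (n (by simpa [RS.ht] using z.ne)) (map_one ρ ▸ wt_T (one_mem _)))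
  refine ⟨(l E)⁻¹ • l, by simp [c], fun t g hg => ?_⟩
  have d := fx (hΓ := hΓ) hR h (S := {δ | R.ht γ ≤ R.ht δ ∧ δ ≠ γ}) (fun μ a ν b => by
    have := RS.ht_add μ ν
    have := a.1
    have := b.1
    exact ⟨by omega, n (by omega)⟩) (fun _ a _ => a) hg
  have e : l _ = 0 := b (add_mem (add_mem (fs_mono (fun _ a => a.2) d) (fs_mono (by
    rintro _ ⟨m, rfl⟩
    refine n ?_
    rw [RS.ht_nsmul]
    push_cast
    nlinarith [Int.natCast_nonneg m]) (q t))) (fs_mul (fun μ (a : 0 < R.ht μ) ν b => n (by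
      have := RS.ht_add μ ν
      have := b.1
      omega)) (fU (hΓ := hΓ) hR h (RG.x_mem hγ.1 hγ.2 t)) d))
  rw [show ρ g - 1 + (ρ (Γ.x γ t) - 1 - t • E) + (ρ (Γ.x γ t) - 1) * (ρ g - 1) =
    ρ (Γ.x γ t * g) - 1 - t • E by rw [map_mul]; noncomm_ring, map_sub, map_sub, c, sub_zero,
    sub_eq_zero, map_smul] at e
  rw [LinearMap.smul_apply, e, smul_eq_mul, smul_eq_mul, mul_comm, mul_inv_cancel_right₀ a]

theorem ker_B (hg : ρ g = 1) : ∃ u ∈ Γ.U, ∃ t ∈ Γ.T, ∃ u' ∈ Γ.U, g = u * t * u' := by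
  obtain ⟨u, hu, n, w, hn, u', hu', rfl⟩ := hΓ.bruhat hR g
  replace hu' := RG.X_le_U (RS.cl_Inv _).1 hu'
  refine ⟨u, hu, n, hΓ.rep_one hR (hR.eq_one hn.mem_W (fun j _ => ?_) ▸ hn), u', hu', rfl⟩
  refine (hR.sign' hn.mem_W (hR.simple j)).resolve_right fun a => ?_
  obtain ⟨c, hc⟩ := hΓ.rep_conj hR hn (hR.simple j)
  have m := hR.map_mem hn.mem_W (hR.simple j)
  have e : ∀ x, ρ (n * x * n⁻¹) = ρ (u⁻¹ * u'⁻¹ * x * (u⁻¹ * u'⁻¹)⁻¹) := fun x => by
    have : ρ n = ρ (u⁻¹ * u'⁻¹) := by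
      rw [show n = u⁻¹ * (u * n * u') * u'⁻¹ by group, map_mul, map_mul, hg, mul_one, map_mul]
    have i : ρ n⁻¹ = ρ (u⁻¹ * u'⁻¹)⁻¹ := by
      rw [← mul_one (ρ n⁻¹), ← map_one ρ, ← mul_inv_cancel (u⁻¹ * u'⁻¹), map_mul, ← this, ← mul_assoc,
        ← map_mul, inv_mul_cancel, map_one, one_mul]
    rw [map_mul, map_mul, this, i, ← map_mul, ← map_mul]
  have b := mul_mem (inv_mem hu) (inv_mem hu')
  have p := fU (hΓ := hΓ) hR h (mul_mem (mul_mem b (RG.x_mem (hR.simple j) (RS.α_nonneg j) 1)) (inv_mem b))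
  rw [← e, (hc 1).1] at p
  have q := (Submodule.disjoint_def.1 (fs_disj hR (Set.disjoint_left.2 fun μ (x : 0 < R.ht μ)
    (y : R.ht μ < 0) => lt_asymm x y))) _ p (fV hR h (RG.x_mem m a _))
  obtain ⟨E, o, p, r⟩ := (dr_all (hΓ := hΓ) hR h m).ex (hΓ := hΓ) hR m
  have r := r (c * 1)
  rw [q, zero_sub, neg_mem_iff, Submodule.smul_mem_iff _ (by simp)] at r
  refine o ((Submodule.disjoint_def.1 (fs_disj hR (S := {w (R.α j)}) (Set.disjoint_left.2 ?_))) E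
    (fs_of rfl p) r)
  rintro _ rfl ⟨k, e⟩
  refine (hR.sign _ m).1 ((smul_eq_zero.1 (?_ : (k + 1) • w (R.α j) = 0)).resolve_left (by omega))
  rw [succ_nsmul _ (k + 1)] at e
  exact right_eq_add.1 e

end Vale.Agent.P011IC
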